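import Mathlib

/-!
# P058: orbits of signed coordinate permutations

For a finite index type `ι`, a sign vector `ε : ι → ℤˣ` and a permutation `p` of `ι`, the map
`x ↦ (i ↦ ε i * x (p⁻¹ i))` is an isometry of `EuclideanSpace ℝ ι`.  These maps form a group (the
image of the semidirect product of the sign vectors by the permutations).  If the permutations
are taken in a commutative subgroup, the group is soluble.

Main statements:

* `soluble_signed_orbit` : for a permutation `π` and a vector `v` there are a finite set `X` and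
  a soluble group `G` of isometries, mapping `X` into itself and transitive on `X`, such that `X`
  contains every vector `x` whose coordinates are, up to signs, those of `v` moved by a power of
  `π`: `x i = ± v ((π ^ k) i)`.
* `transitive_signed_orbit` : the same for arbitrary permutations, without solubility.
-/

namespace Vale.Agent.Lib.P058.H27

open scoped BigOperators

variable {ι : Type*} [Fintype ι]

/-- A sign (a unit of `ℤ`) as a real number squares to one. -/
theorem sgn_mul_self (u : ℤˣ) : (((u : ℤ) : ℝ)) * (((u : ℤ) : ℝ)) = 1 := by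
  rcases Int.units_eq_one_or u with h | h <;> simp [h]

/-- The isometry `x ↦ (i ↦ ε i * x (p⁻¹ i))` of `EuclideanSpace ℝ ι`. -/
noncomputable def sgnPerm (ε : ι → ℤˣ) (p : Equiv.Perm ι) :
    EuclideanSpace ℝ ι ≃ᵢ EuclideanSpace ℝ ι where
  toFun x := WithLp.toLp 2 (fun i => ((ε i : ℤ) : ℝ) * x (p.symm i))
  invFun y := WithLp.toLp 2 (fun j => ((ε (p j) : ℤ) : ℝ) * y (p j))
  left_inv x := by
    ext j
    simp only [Equiv.symm_apply_apply]
    rw [← mul_assoc, sgn_mul_self, one_mul]
  right_inv y := by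
    ext i
    simp only [Equiv.apply_symm_apply]
    rw [← mul_assoc, sgn_mul_self, one_mul]
  isometry_toFun := by
    refine Isometry.of_dist_eq (fun x y => ?_)
    rw [EuclideanSpace.dist_eq, EuclideanSpace.dist_eq]
    congr 1
    rw [← Equiv.sum_comp p.symm (fun j => dist (x j) (y j) ^ 2)]
    refine Finset.sum_congr rfl (fun i _ => ?_)
    have h : (((ε i : ℤ) : ℝ)) ^ 2 = 1 := by
      rw [pow_two]
      exact sgn_mul_self (ε i)
    change dist (((ε i : ℤ) : ℝ) * x (p.symm i)) (((ε i : ℤ) : ℝ) * y (p.symm i)) ^ 2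
      = dist (x (p.symm i)) (y (p.symm i)) ^ 2
    rw [Real.dist_eq, Real.dist_eq, ← mul_sub, abs_mul, mul_pow, sq_abs, sq_abs, h,
      one_mul]

theorem sgnPerm_apply (ε : ι → ℤˣ) (p : Equiv.Perm ι) (x : EuclideanSpace ℝ ι) (i : ι) :
    sgnPerm ε p x i = ((ε i : ℤ) : ℝ) * x (p.symm i) := rfl

/-- The action of permutations on sign vectors: `p • ε = ε ∘ p⁻¹`. -/
def permAut : Equiv.Perm ι →* MulAut (ι → ℤˣ) where
  toFun p :=
    { toFun := fun ε => ε ∘ p.symm
      invFun := fun ε => ε ∘ p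
      left_inv := fun ε => by
        funext i
        simp
      right_inv := fun ε => by
        funext i
        simp
      map_mul' := fun _ _ => rfl }
  map_one' := rfl
  map_mul' _ _ := rfl

omit [Fintype ι] in
theorem permAut_apply (p : Equiv.Perm ι) (ε : ι → ℤˣ) (i : ι) :
    permAut p ε i = ε (p.symm i) := rfl

/-- The representation of the semidirect product (sign vectors by the permutations of a
subgroup `A`) by isometries. -/
noncomputable def sgnHom (A : Subgroup (Equiv.Perm ι)) :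
    (ι → ℤˣ) ⋊[permAut.comp A.subtype] A →* (EuclideanSpace ℝ ι ≃ᵢ EuclideanSpace ℝ ι) where
  toFun γ := sgnPerm γ.left (γ.right : Equiv.Perm ι)
  map_one' := by
    ext x i
    change ((((1 : ι → ℤˣ) i : ℤˣ) : ℤ) : ℝ) * x i = x i
    simp
  map_mul' γ γ' := by
    ext x i
    rw [IsometryEquiv.mul_apply, sgnPerm_apply, sgnPerm_apply, sgnPerm_apply,
      SemidirectProduct.mul_left, SemidirectProduct.mul_right]
    simp only [Pi.mul_apply, MonoidHom.comp_apply, Subgroup.coe_subtype, permAut_apply,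
      Subgroup.coe_mul, Units.val_mul, Int.cast_mul, Equiv.Perm.mul_def, Equiv.symm_trans_apply]
    ring

theorem sgnHom_apply (A : Subgroup (Equiv.Perm ι))
    (γ : (ι → ℤˣ) ⋊[permAut.comp A.subtype] A) :
    sgnHom A γ = sgnPerm γ.left (γ.right : Equiv.Perm ι) := rfl

/-- The semidirect product of the sign vectors by a commutative group of permutations is
soluble. -/
theorem isSolvable_semi (A : Subgroup (Equiv.Perm ι)) (hA : Group.IsSolvable A) :
    Group.IsSolvable ((ι → ℤˣ) ⋊[permAut.comp A.subtype] A) :=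
  Group.isSolvable_of_ker_le_range (SemidirectProduct.inl) (SemidirectProduct.rightHom)
    (SemidirectProduct.range_inl_eq_ker_rightHom).ge

/-- Core statement: the orbit of `v` under the signed permutations with permutation part in a
subgroup `A`. -/
theorem orbit_core (A : Subgroup (Equiv.Perm ι)) (v : EuclideanSpace ℝ ι) :
    ∃ (X : Set (EuclideanSpace ℝ ι))
      (G : Subgroup (EuclideanSpace ℝ ι ≃ᵢ EuclideanSpace ℝ ι)),
      X.Finite ∧ (Group.IsSolvable A → Group.IsSolvable G) ∧
      (∀ g ∈ G, ∀ p ∈ X, g p ∈ X) ∧ (∀ p ∈ X, ∀ q ∈ X, ∃ g ∈ G, g p = q) ∧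
      ∀ (ε : ι → ℤˣ) (p : Equiv.Perm ι), p ∈ A → sgnPerm ε p v ∈ X := by
  classical
  have : Finite ((ι → ℤˣ) ⋊[permAut.comp A.subtype] A) :=
    Finite.of_equiv _ SemidirectProduct.equivProd.symm
  refine ⟨Set.range (fun γ : (ι → ℤˣ) ⋊[permAut.comp A.subtype] A => sgnHom A γ v),
    (sgnHom A).range, Set.finite_range _, ?_, ?_, ?_, ?_⟩
  · intro hA
    have := isSolvable_semi A hA
    exact Group.isSolvable_of_surjective (sgnHom A).rangeRestrict_surjective
  · rintro g ⟨γ', rfl⟩ p ⟨γ, rfl⟩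
    refine ⟨γ' * γ, ?_⟩
    simp only [map_mul, IsometryEquiv.mul_apply]
  · rintro p ⟨γ, rfl⟩ q ⟨γ', rfl⟩
    refine ⟨sgnHom A (γ' * γ⁻¹), ⟨γ' * γ⁻¹, rfl⟩, ?_⟩
    simp only
    rw [← IsometryEquiv.mul_apply, ← map_mul, inv_mul_cancel_right]
  · intro ε p hp
    exact ⟨⟨ε, ⟨p, hp⟩⟩, rfl⟩

omit [Fintype ι] in
/-- The group of powers of one permutation is commutative, hence soluble. -/
theorem isSolvable_zpowers (π : Equiv.Perm ι) : Group.IsSolvable (Subgroup.zpowers π) := by
  refine Group.isSolvable_of_comm (fun a b => ?_)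
  obtain ⟨a, k, rfl⟩ := a
  obtain ⟨b, l, rfl⟩ := b
  exact Subtype.ext (zpow_mul_comm π k l)

/-- Membership in the orbit from a coordinatewise description. -/
theorem mem_of_coord (X : Set (EuclideanSpace ℝ ι)) (v : EuclideanSpace ℝ ι)
    (A : Subgroup (Equiv.Perm ι))
    (hmem : ∀ (ε : ι → ℤˣ) (p : Equiv.Perm ι), p ∈ A → sgnPerm ε p v ∈ X)
    (q : Equiv.Perm ι) (hq : q⁻¹ ∈ A) (x : EuclideanSpace ℝ ι)
    (hx : ∀ i, x i = v (q i) ∨ x i = - v (q i)) : x ∈ X := by
  classical
  have h1 := hmem (fun i => if x i = v (q i) then 1 else -1) q⁻¹ hq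
  have h2 : sgnPerm (fun i => if x i = v (q i) then 1 else -1) q⁻¹ v = x := by
    ext i
    rw [sgnPerm_apply]
    have hs : (q⁻¹).symm i = q i := rfl
    rw [hs]
    beta_reduce
    by_cases h : x i = v (q i)
    · rw [if_pos h, h]
      simp
    · rw [if_neg h, (hx i).resolve_left h]
      simp
  rw [← h2]
  exact h1

/-- **Soluble signed orbits.** For a permutation `π` of a finite index type `ι` and a vector
`v` of `EuclideanSpace ℝ ι` there are a finite set `X` and a soluble group `G` of isometries of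
`EuclideanSpace ℝ ι` that maps `X` into itself and acts transitively on `X`, such that `X`
contains every vector `x` with `x i = ± v ((π ^ k) i)` for all `i`, for some integer `k`. -/
theorem soluble_signed_orbit (π : Equiv.Perm ι) (v : EuclideanSpace ℝ ι) :
    ∃ (X : Set (EuclideanSpace ℝ ι))
      (G : Subgroup (EuclideanSpace ℝ ι ≃ᵢ EuclideanSpace ℝ ι)),
      X.Finite ∧ Group.IsSolvable G ∧
      (∀ g ∈ G, ∀ p ∈ X, g p ∈ X) ∧ (∀ p ∈ X, ∀ q ∈ X, ∃ g ∈ G, g p = q) ∧
      ∀ x : EuclideanSpace ℝ ι,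
        (∃ k : ℤ, ∀ i, x i = v ((π ^ k) i) ∨ x i = - v ((π ^ k) i)) → x ∈ X := by
  obtain ⟨X, G, hfin, hsol, hinv, htr, hmem⟩ := orbit_core (Subgroup.zpowers π) v
  refine ⟨X, G, hfin, hsol (isSolvable_zpowers π), hinv, htr, ?_⟩
  rintro x ⟨k, hk⟩
  exact mem_of_coord X v (Subgroup.zpowers π) hmem (π ^ k)
    (inv_mem (zpow_mem (Subgroup.mem_zpowers π) k)) x hk

/-- **Transitive signed orbits.** For a vector `v` of `EuclideanSpace ℝ ι` there are a finite
set `X` and a group `G` of isometries of `EuclideanSpace ℝ ι` that maps `X` into itself and acts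
transitively on `X`, such that `X` contains every vector `x` with `x i = ± v (q i)` for all
`i`, for some permutation `q` of `ι`. -/
theorem transitive_signed_orbit (v : EuclideanSpace ℝ ι) :
    ∃ (X : Set (EuclideanSpace ℝ ι))
      (G : Subgroup (EuclideanSpace ℝ ι ≃ᵢ EuclideanSpace ℝ ι)),
      X.Finite ∧
      (∀ g ∈ G, ∀ p ∈ X, g p ∈ X) ∧ (∀ p ∈ X, ∀ q ∈ X, ∃ g ∈ G, g p = q) ∧
      ∀ x : EuclideanSpace ℝ ι,
        (∃ q : Equiv.Perm ι, ∀ i, x i = v (q i) ∨ x i = - v (q i)) → x ∈ X := by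
  obtain ⟨X, G, hfin, -, hinv, htr, hmem⟩ := orbit_core (⊤ : Subgroup (Equiv.Perm ι)) v
  refine ⟨X, G, hfin, hinv, htr, ?_⟩
  rintro x ⟨q, hq⟩
  exact mem_of_coord X v ⊤ hmem q (Subgroup.mem_top _) x hq

end Vale.Agent.Lib.P058.H27
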