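import Mathlib
import Vale.Agent.Lib.P058.helper27.SignedOrbit

/-!
# P058: signed-permutation orbits, moved to `EuclideanSpace ℝ (Fin n)`

For a finite index type `ι` and a vector `v` of `EuclideanSpace ℝ ι` there are `n`, a finite
set `X` of points of `EuclideanSpace ℝ (Fin n)` with a transitive group of isometries and a
distance preserving map `emb` from `EuclideanSpace ℝ ι` such that `emb x ∈ X` for every `x`
whose coordinates are, up to signs, a rearrangement of those of `v`.
-/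

namespace Vale.Agent.Lib.P058.H27

open scoped BigOperators

/-- **Transitive signed orbits in `EuclideanSpace ℝ (Fin n)`.** -/
theorem transitive_orbit_fin {ι : Type*} [Fintype ι] (v : EuclideanSpace ℝ ι) :
    ∃ (n : ℕ) (X : Set (EuclideanSpace ℝ (Fin n)))
      (G : Subgroup (EuclideanSpace ℝ (Fin n) ≃ᵢ EuclideanSpace ℝ (Fin n)))
      (emb : EuclideanSpace ℝ ι → EuclideanSpace ℝ (Fin n)),
      X.Finite ∧
      (∀ g ∈ G, ∀ p ∈ X, g p ∈ X) ∧ (∀ p ∈ X, ∀ q ∈ X, ∃ g ∈ G, g p = q) ∧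
      (∀ x y : EuclideanSpace ℝ ι, dist (emb x) (emb y) = dist x y) ∧
      ∀ x : EuclideanSpace ℝ ι,
        (∃ q : Equiv.Perm ι, ∀ i, x i = v (q i) ∨ x i = - v (q i)) → emb x ∈ X := by
  classical
  obtain ⟨e⟩ : Nonempty (ι ≃ Fin (Fintype.card ι)) := ⟨Fintype.equivFin ι⟩
  obtain ⟨X, G, hfin, hinv, htr, hmem⟩ :=
    transitive_signed_orbit (ι := Fin (Fintype.card ι))
      (WithLp.toLp 2 (fun k => v (e.symm k)))
  refine ⟨Fintype.card ι, X, G, fun x => WithLp.toLp 2 (fun k => x (e.symm k)), hfin, hinv, htr,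
    ?_, ?_⟩
  · intro x y
    rw [EuclideanSpace.dist_eq, EuclideanSpace.dist_eq]
    congr 1
    exact Equiv.sum_comp e.symm (fun i => dist (x i) (y i) ^ 2)
  · rintro x ⟨q, hq⟩
    refine hmem _ ⟨e.symm.trans (q.trans e), fun k => ?_⟩
    have h := hq (e.symm k)
    simpa using h

end Vale.Agent.Lib.P058.H27
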