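import Mathlib

/-!
# The group of linear isometries of the complex plane is soluble

`ℂ ≃ₗᵢ[ℝ] ℂ` (the orthogonal group of the Euclidean plane) is an extension of the
commutative group of determinants by the commutative group of rotations.
-/

namespace Vale.Agent.Lib.P058.H27

open Complex

/-- The determinant, as a monoid homomorphism on the linear isometries of `ℂ`. -/
noncomputable def detHom : (ℂ ≃ₗᵢ[ℝ] ℂ) →* ℝˣ where
  toFun e := LinearEquiv.det e.toLinearEquiv
  map_one' := by
    have : (1 : ℂ ≃ₗᵢ[ℝ] ℂ).toLinearEquiv = 1 := rfl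
    rw [this, map_one]
  map_mul' e₁ e₂ := by
    have : (e₁ * e₂).toLinearEquiv = e₁.toLinearEquiv * e₂.toLinearEquiv := rfl
    rw [this, map_mul]

theorem detHom_rotation (a : Circle) : detHom (rotation a) = 1 :=
  linearEquiv_det_rotation a

theorem detHom_conjLIE : detHom conjLIE = -1 := by
  have : (conjLIE : ℂ ≃ₗᵢ[ℝ] ℂ).toLinearEquiv = conjAe.toLinearEquiv := rfl
  change LinearEquiv.det (conjLIE : ℂ ≃ₗᵢ[ℝ] ℂ).toLinearEquiv = -1
  rw [this, linearEquiv_det_conjAe]

/-- A linear isometry of `ℂ` of determinant one is a rotation. -/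
theorem ker_detHom_le : detHom.ker ≤ rotation.range := by
  intro f hf
  rw [MonoidHom.mem_ker] at hf
  obtain ⟨a, h | h⟩ := linear_isometry_complex f
  · exact ⟨a, h.symm⟩
  · exfalso
    have h2 : f = rotation a * conjLIE := h
    rw [h2, map_mul, detHom_rotation, detHom_conjLIE, one_mul] at hf
    have h3 := congrArg (fun u : ℝˣ => (u : ℝ)) hf
    simp at h3
    linarith

/-- The group of linear isometries of the Euclidean plane `ℂ` is soluble. -/
theorem isSolvable_lie : Group.IsSolvable (ℂ ≃ₗᵢ[ℝ] ℂ) :=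
  Group.isSolvable_of_ker_le_range rotation detHom ker_detHom_le

/-- Pool job P058-J3, exact statement. -/
theorem isSolvable_O2 : Group.IsSolvable (ℂ ≃ₗᵢ[ℝ] ℂ) := isSolvable_lie

end Vale.Agent.Lib.P058.H27
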