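import Mathlib
import Vale.Agent.Lib.P058.helper27.FinOrbit
import Vale.Agent.Lib.P058.helper90.CycKite

/-!
# P058: cyclic kites with sides `√A, √A, √B, √B`

For positive integers `p`, `s` put `q = p + s`.  The index set consists of the triples
`0, w, j` with `j < s`, `w + j < q`, the triples `1, w, j` with `1 ≤ w`, `j < s`,
`w + j < q`, and the triple `2, 0, 0`.  The integer vectors

* `a = w` on the triples with tag `0` or `1`, `q` on `2, 0, 0`;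
* `c = a` except `- q` on `2, 0, 0`;
* `b = w + 1` on tag `0`, `w - 1` on tag `1`, `p` on `2, 0, 0`;
* `d = w - 1` on tag `0`, `w + 1` on tag `1`, `p` on `2, 0, 0`

satisfy `q (b + d) = (q + p) a + (q - p) c`, the vectors `b`, `c`, `d` are rearrangements of `a`
up to signs, and `⟪a, b⟫ = ⟪a, d⟫`.  Hence the four points form the cyclic kite with
`cos θ = p / q`, inside one orbit of the group of signed coordinate permutations.
-/

namespace Vale.Agent.Lib.P058.H27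

open scoped BigOperators

/-- The index set. -/
def idx (p s : ℕ) : Finset (ℕ × ℕ × ℕ) :=
  ((Finset.range 3) ×ˢ ((Finset.range (p + s)) ×ˢ (Finset.range s))).filter
    (fun x => (x.1 = 0 ∧ x.2.1 + x.2.2 < p + s) ∨ (x.1 = 1 ∧ 1 ≤ x.2.1 ∧ x.2.1 + x.2.2 < p + s) ∨
      (x.1 = 2 ∧ x.2.1 = 0 ∧ x.2.2 = 0))

theorem mem_idx (p s t w j : ℕ) : (t, w, j) ∈ idx p s ↔
    j < s ∧ ((t = 0 ∧ w + j < p + s) ∨ (t = 1 ∧ 1 ≤ w ∧ w + j < p + s) ∨
      (t = 2 ∧ w = 0 ∧ j = 0)) := by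
  simp only [idx, Finset.mem_filter, Finset.mem_product, Finset.mem_range]
  omega

/-- The coordinates of `a`. -/
def fa (q : ℤ) (x : ℕ × ℕ × ℕ) : ℤ := if x.1 = 2 then q else x.2.1

/-- The coordinates of `c`. -/
def fc (q : ℤ) (x : ℕ × ℕ × ℕ) : ℤ := if x.1 = 2 then -q else x.2.1

/-- The coordinates of `b`. -/
def fb (p : ℤ) (x : ℕ × ℕ × ℕ) : ℤ :=
  if x.1 = 0 then x.2.1 + 1 else if x.1 = 1 then x.2.1 - 1 else p

/-- The coordinates of `d`. -/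
def fd (p : ℤ) (x : ℕ × ℕ × ℕ) : ℤ :=
  if x.1 = 0 then x.2.1 - 1 else if x.1 = 1 then x.2.1 + 1 else p

/-- The rearrangement for `b`. -/
def phi (p s : ℕ) (x : ℕ × ℕ × ℕ) : ℕ × ℕ × ℕ :=
  if x.1 = 0 then
    (if x.2.1 + 1 + x.2.2 < p + s then (0, x.2.1 + 1, x.2.2)
      else if x.2.2 = 0 then (2, 0, 0) else (1, x.2.1 + 1, x.2.2 - 1))
  else if x.1 = 1 then (if 2 ≤ x.2.1 then (1, x.2.1 - 1, x.2.2) else (0, 0, x.2.2))
  else (1, p, s - 1)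

/-- The rearrangement for `d`. -/
def psi (p s : ℕ) (x : ℕ × ℕ × ℕ) : ℕ × ℕ × ℕ :=
  if x.1 = 0 then (if 1 ≤ x.2.1 then (0, x.2.1 - 1, x.2.2) else (1, 1, x.2.2))
  else if x.1 = 1 then
    (if x.2.1 + 1 + x.2.2 < p + s then (1, x.2.1 + 1, x.2.2)
      else if x.2.2 = 0 then (2, 0, 0) else (0, x.2.1 + 1, x.2.2 - 1))
  else (0, p, s - 1)

/-- The involution exchanging the tags `0` and `1` where possible. -/
def tau (x : ℕ × ℕ × ℕ) : ℕ × ℕ × ℕ :=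
  if x.1 = 0 then (if 1 ≤ x.2.1 then (1, x.2.1, x.2.2) else (0, x.2.1, x.2.2))
  else if x.1 = 1 then (0, x.2.1, x.2.2) else (x.1, x.2.1, x.2.2)

theorem phi_mem (p s : ℕ) (hp : 0 < p) (x : ℕ × ℕ × ℕ) (hx : x ∈ idx p s) :
    phi p s x ∈ idx p s := by
  obtain ⟨t, w, j⟩ := x
  rw [mem_idx] at hx
  obtain ⟨hj, ⟨rfl, h0⟩ | ⟨rfl, h1, h2⟩ | ⟨rfl, rfl, rfl⟩⟩ := hx
  all_goals simp only [phi]
  all_goals (try split_ifs)
  all_goals rw [mem_idx]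
  all_goals (try simp at *)
  all_goals (try omega)

theorem phi_inj (p s : ℕ) (x y : ℕ × ℕ × ℕ) (hx : x ∈ idx p s)
    (hy : y ∈ idx p s) (h : phi p s x = phi p s y) : x = y := by
  obtain ⟨t, w, j⟩ := x
  obtain ⟨t', w', j'⟩ := y
  rw [mem_idx] at hx hy
  obtain ⟨hj, ⟨rfl, h0⟩ | ⟨rfl, h1, h2⟩ | ⟨rfl, rfl, rfl⟩⟩ := hx <;>
  obtain ⟨hj', ⟨rfl, h0'⟩ | ⟨rfl, h1', h2'⟩ | ⟨rfl, rfl, rfl⟩⟩ := hy
  all_goals simp only [phi] at h
  all_goals (try split_ifs at h)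
  all_goals (try simp at h ⊢)
  all_goals (try omega)

theorem fb_phi (p s : ℕ) (x : ℕ × ℕ × ℕ) (hx : x ∈ idx p s) :
    fb p x = fa ((p : ℤ) + s) (phi p s x) := by
  obtain ⟨t, w, j⟩ := x
  rw [mem_idx] at hx
  obtain ⟨hj, ⟨rfl, h0⟩ | ⟨rfl, h1, h2⟩ | ⟨rfl, rfl, rfl⟩⟩ := hx
  all_goals simp only [phi, fb, fa]
  all_goals (try split_ifs)
  all_goals (try simp at *)
  all_goals (try omega)

theorem psi_mem (p s : ℕ) (hp : 0 < p) (x : ℕ × ℕ × ℕ) (hx : x ∈ idx p s) :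
    psi p s x ∈ idx p s := by
  obtain ⟨t, w, j⟩ := x
  rw [mem_idx] at hx
  obtain ⟨hj, ⟨rfl, h0⟩ | ⟨rfl, h1, h2⟩ | ⟨rfl, rfl, rfl⟩⟩ := hx
  all_goals simp only [psi]
  all_goals (try split_ifs)
  all_goals rw [mem_idx]
  all_goals (try simp at *)
  all_goals (try omega)

theorem psi_inj (p s : ℕ) (x y : ℕ × ℕ × ℕ) (hx : x ∈ idx p s)
    (hy : y ∈ idx p s) (h : psi p s x = psi p s y) : x = y := by
  obtain ⟨t, w, j⟩ := x
  obtain ⟨t', w', j'⟩ := y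
  rw [mem_idx] at hx hy
  obtain ⟨hj, ⟨rfl, h0⟩ | ⟨rfl, h1, h2⟩ | ⟨rfl, rfl, rfl⟩⟩ := hx <;>
  obtain ⟨hj', ⟨rfl, h0'⟩ | ⟨rfl, h1', h2'⟩ | ⟨rfl, rfl, rfl⟩⟩ := hy
  all_goals simp only [psi] at h
  all_goals (try split_ifs at h)
  all_goals (try simp at h ⊢)
  all_goals (try omega)

theorem fd_psi (p s : ℕ) (x : ℕ × ℕ × ℕ) (hx : x ∈ idx p s) :
    fd p x = fa ((p : ℤ) + s) (psi p s x) ∨ fd p x = - fa ((p : ℤ) + s) (psi p s x) := by
  obtain ⟨t, w, j⟩ := x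
  rw [mem_idx] at hx
  obtain ⟨hj, ⟨rfl, h0⟩ | ⟨rfl, h1, h2⟩ | ⟨rfl, rfl, rfl⟩⟩ := hx
  all_goals simp only [psi, fd, fa]
  all_goals (try split_ifs)
  all_goals (try simp at *)
  all_goals (try omega)

theorem tau_mem (p s : ℕ) (x : ℕ × ℕ × ℕ) (hx : x ∈ idx p s) : tau x ∈ idx p s := by
  obtain ⟨t, w, j⟩ := x
  rw [mem_idx] at hx
  obtain ⟨hj, ⟨rfl, h0⟩ | ⟨rfl, h1, h2⟩ | ⟨rfl, rfl, rfl⟩⟩ := hx
  all_goals simp only [tau]
  all_goals (try split_ifs)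
  all_goals rw [mem_idx]
  all_goals (try simp at *)
  all_goals (try omega)

theorem tau_tau (p s : ℕ) (x : ℕ × ℕ × ℕ) (hx : x ∈ idx p s) : tau (tau x) = x := by
  obtain ⟨t, w, j⟩ := x
  rw [mem_idx] at hx
  obtain ⟨hj, ⟨rfl, h0⟩ | ⟨rfl, h1, h2⟩ | ⟨rfl, rfl, rfl⟩⟩ := hx
  all_goals simp only [tau]
  all_goals (try split_ifs)
  all_goals (try simp at *)

theorem fa_fb_tau (p s : ℕ) (q p' : ℤ) (x : ℕ × ℕ × ℕ) (hx : x ∈ idx p s) :
    fa q (tau x) * fb p' (tau x) = fa q x * fd p' x := by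
  obtain ⟨t, w, j⟩ := x
  rw [mem_idx] at hx
  obtain ⟨hj, ⟨rfl, h0⟩ | ⟨rfl, h1, h2⟩ | ⟨rfl, rfl, rfl⟩⟩ := hx
  · by_cases hw : 1 ≤ w
    · simp [tau, fa, fb, fd, hw]
    · have hw0 : w = 0 := by omega
      subst hw0
      simp [tau, fa, fb, fd]
  · simp [tau, fa, fb, fd]
  · simp [tau, fa, fb, fd]

theorem rel_int (p s : ℕ) (x : ℕ × ℕ × ℕ) (hx : x ∈ idx p s) :
    ((p : ℤ) + s) * (fb p x + fd p x)
      = ((p : ℤ) + s + p) * fa ((p : ℤ) + s) x + (s : ℤ) * fc ((p : ℤ) + s) x := by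
  obtain ⟨t, w, j⟩ := x
  rw [mem_idx] at hx
  obtain ⟨hj, ⟨rfl, h0⟩ | ⟨rfl, h1, h2⟩ | ⟨rfl, rfl, rfl⟩⟩ := hx
  · simp [fa, fb, fc, fd]
    ring
  · simp [fa, fb, fc, fd]
    ring
  · simp [fa, fb, fc, fd]
    ring

/-- A permutation of a finset subtype from a map that preserves the finset and is injective
on it. -/
theorem exists_perm_of_inj (S : Finset (ℕ × ℕ × ℕ)) (g : ℕ × ℕ × ℕ → ℕ × ℕ × ℕ)
    (hmem : ∀ x ∈ S, g x ∈ S) (hinj : ∀ x ∈ S, ∀ y ∈ S, g x = g y → x = y) :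
    ∃ e : Equiv.Perm ↥S, ∀ i : ↥S, (e i : ℕ × ℕ × ℕ) = g i.1 := by
  have hinj' : Function.Injective (fun i : ↥S => (⟨g i.1, hmem i.1 i.2⟩ : ↥S)) := by
    intro i k h
    exact Subtype.ext (hinj i.1 i.2 k.1 k.2 (congrArg Subtype.val h))
  exact ⟨Equiv.ofBijective _ (Finite.injective_iff_bijective.1 hinj'), fun i => rfl⟩

/-- The vector with the coordinates `lam * f x`. -/
noncomputable def vec (p s : ℕ) (lam : ℝ) (f : ℕ × ℕ × ℕ → ℤ) :
    EuclideanSpace ℝ ↥(idx p s) :=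
  WithLp.toLp 2 (fun i => lam * (f i.1 : ℝ))

theorem vec_apply (p s : ℕ) (lam : ℝ) (f : ℕ × ℕ × ℕ → ℤ) (i : ↥(idx p s)) :
    vec p s lam f i = lam * (f i.1 : ℝ) := rfl

/-- A rearrangement up to signs has the same norm. -/
theorem norm_eq_of_signed_perm {ι : Type*} [Fintype ι] (x v : EuclideanSpace ℝ ι)
    (q : Equiv.Perm ι) (h : ∀ i, x i = v (q i) ∨ x i = - v (q i)) : ‖x‖ = ‖v‖ := by
  rw [EuclideanSpace.norm_eq, EuclideanSpace.norm_eq]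
  congr 1
  rw [← Equiv.sum_comp q (fun i => ‖v i‖ ^ 2)]
  refine Finset.sum_congr rfl (fun i _ => ?_)
  rcases h i with h1 | h1 <;> rw [h1]
  rw [norm_neg]

theorem inner_vec (p s : ℕ) (lam : ℝ) (f g : ℕ × ℕ × ℕ → ℤ) :
    inner ℝ (vec p s lam f) (vec p s lam g)
      = lam ^ 2 * ((∑ x ∈ idx p s, f x * g x : ℤ) : ℝ) := by
  have h := Finset.sum_coe_sort (idx p s) (fun x => lam ^ 2 * ((f x * g x : ℤ) : ℝ))
  rw [PiLp.inner_apply, Int.cast_sum, Finset.mul_sum, ← h]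
  refine Finset.sum_congr rfl (fun i _ => ?_)
  rw [vec_apply, vec_apply]
  simp only [Int.cast_mul, inner, star_trivial, RCLike.re_to_real]
  ring

theorem dist_vec_sq (p s : ℕ) (lam : ℝ) (f g : ℕ × ℕ × ℕ → ℤ) :
    dist (vec p s lam f) (vec p s lam g) ^ 2
      = lam ^ 2 * ((∑ x ∈ idx p s, (f x - g x) ^ 2 : ℤ) : ℝ) := by
  have h := Finset.sum_coe_sort (idx p s) (fun x => lam ^ 2 * (((f x - g x) ^ 2 : ℤ) : ℝ))
  rw [EuclideanSpace.dist_eq, Real.sq_sqrt (Finset.sum_nonneg (fun i _ => sq_nonneg _)),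
    Int.cast_sum, Finset.mul_sum, ← h]
  refine Finset.sum_congr rfl (fun i _ => ?_)
  rw [vec_apply, vec_apply, Real.dist_eq, sq_abs]
  push_cast
  ring

theorem sum_fa_fb (p s : ℕ) (q p' : ℤ) :
    ∑ x ∈ idx p s, fa q x * fb p' x = ∑ x ∈ idx p s, fa q x * fd p' x := by
  symm
  exact Finset.sum_nbij' tau tau (tau_mem p s) (tau_mem p s) (tau_tau p s) (tau_tau p s)
    (fun x hx => (fa_fb_tau p s q p' x hx).symm)

theorem sum_fa_fc (p s : ℕ) (hs : 0 < s) (q : ℤ) :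
    ∑ x ∈ idx p s, (fa q x - fc q x) ^ 2 = (2 * q) ^ 2 := by
  have hmem : ((2, 0, 0) : ℕ × ℕ × ℕ) ∈ idx p s := by
    rw [mem_idx]
    omega
  rw [Finset.sum_eq_single_of_mem _ hmem]
  · simp [fa, fc]
    ring
  · rintro ⟨t, w, j⟩ hx hne
    rw [mem_idx] at hx
    obtain ⟨hj, ⟨rfl, h0⟩ | ⟨rfl, h1, h2⟩ | ⟨rfl, rfl, rfl⟩⟩ := hx
    · simp [fa, fc]
    · simp [fa, fc]
    · exact absurd rfl hne

/-- The four points in `EuclideanSpace ℝ ↥(idx p s)`. -/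
theorem rat_kite_points (p s : ℕ) (hp : 0 < p) (hs : 0 < s) (lam : ℝ) :
    ∃ a b c d : EuclideanSpace ℝ ↥(idx p s),
      (∃ q : Equiv.Perm ↥(idx p s), ∀ i, b i = a (q i) ∨ b i = - a (q i)) ∧
      (∃ q : Equiv.Perm ↥(idx p s), ∀ i, c i = a (q i) ∨ c i = - a (q i)) ∧
      (∃ q : Equiv.Perm ↥(idx p s), ∀ i, d i = a (q i) ∨ d i = - a (q i)) ∧
      dist a c ^ 2 = 4 * lam ^ 2 * ((p : ℝ) + s) ^ 2 ∧
      dist a b ^ 2 = 2 * lam ^ 2 * s * ((p : ℝ) + s) ∧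
      dist a d ^ 2 = 2 * lam ^ 2 * s * ((p : ℝ) + s) ∧
      dist c b ^ 2 = 2 * lam ^ 2 * (2 * p + s) * ((p : ℝ) + s) ∧
      dist c d ^ 2 = 2 * lam ^ 2 * (2 * p + s) * ((p : ℝ) + s) ∧
      dist b d ^ 2 = 4 * lam ^ 2 * s * (2 * (p : ℝ) + s) := by
  have hq : (0 : ℝ) < (p : ℝ) + s := by positivity
  have hb : ∃ q : Equiv.Perm ↥(idx p s), ∀ i,
      vec p s lam (fb p) i = vec p s lam (fa ((p : ℤ) + s)) (q i) ∨
      vec p s lam (fb p) i = - vec p s lam (fa ((p : ℤ) + s)) (q i) := by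
    obtain ⟨e, he⟩ := exists_perm_of_inj (idx p s) (phi p s) (phi_mem p s hp)
      (fun x hx y hy h => phi_inj p s x y hx hy h)
    refine ⟨e, fun i => Or.inl ?_⟩
    rw [vec_apply, vec_apply, he i, fb_phi p s i.1 i.2]
  have hc : ∃ q : Equiv.Perm ↥(idx p s), ∀ i,
      vec p s lam (fc ((p : ℤ) + s)) i = vec p s lam (fa ((p : ℤ) + s)) (q i) ∨
      vec p s lam (fc ((p : ℤ) + s)) i = - vec p s lam (fa ((p : ℤ) + s)) (q i) := by
    refine ⟨1, fun i => ?_⟩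
    rw [vec_apply, vec_apply, Equiv.Perm.coe_one, id]
    by_cases h : i.1.1 = 2
    · right
      simp [fa, fc, h]
      ring
    · left
      simp [fa, fc, h]
  have hd : ∃ q : Equiv.Perm ↥(idx p s), ∀ i,
      vec p s lam (fd p) i = vec p s lam (fa ((p : ℤ) + s)) (q i) ∨
      vec p s lam (fd p) i = - vec p s lam (fa ((p : ℤ) + s)) (q i) := by
    obtain ⟨e, he⟩ := exists_perm_of_inj (idx p s) (psi p s) (psi_mem p s hp)
      (fun x hx y hy h => psi_inj p s x y hx hy h)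
    refine ⟨e, fun i => ?_⟩
    rw [vec_apply, vec_apply, he i]
    rcases fd_psi p s i.1 i.2 with h | h
    · left
      rw [h]
    · right
      rw [h]
      push_cast
      ring
  have hac : dist (vec p s lam (fa ((p : ℤ) + s))) (vec p s lam (fc ((p : ℤ) + s))) ^ 2
      = 4 * lam ^ 2 * ((p : ℝ) + s) ^ 2 := by
    rw [dist_vec_sq, sum_fa_fc p s hs]
    push_cast
    ring
  have hrel : vec p s lam (fb p) + vec p s lam (fd p)
      = (1 + (p : ℝ) / ((p : ℝ) + s)) • vec p s lam (fa ((p : ℤ) + s))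
        + (1 - (p : ℝ) / ((p : ℝ) + s)) • vec p s lam (fc ((p : ℤ) + s)) := by
    ext i
    have h := congrArg (fun z : ℤ => (z : ℝ)) (rel_int p s i.1 i.2)
    simp only [Int.cast_mul, Int.cast_add, Int.cast_natCast] at h
    simp only [PiLp.add_apply, PiLp.smul_apply, smul_eq_mul, vec_apply]
    field_simp
    linear_combination lam * h
  have hinner : inner ℝ (vec p s lam (fa ((p : ℤ) + s))) (vec p s lam (fb p))
      = inner ℝ (vec p s lam (fa ((p : ℤ) + s))) (vec p s lam (fd p)) := by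
    rw [inner_vec, inner_vec, sum_fa_fb]
  obtain ⟨qb, hqb⟩ := hb
  obtain ⟨qc, hqc⟩ := hc
  obtain ⟨qd, hqd⟩ := hd
  have ht : (p : ℝ) / ((p : ℝ) + s) ≠ 1 := by
    intro h
    rw [div_eq_one_iff_eq hq.ne'] at h
    have hs' : (0 : ℝ) < s := by exact_mod_cast hs
    linarith
  obtain ⟨e1, e2, e3, e4, e5⟩ := Vale.Agent.Lib.P058.H90.kite_of_relation _ _ _ _ _ ht
    (norm_eq_of_signed_perm _ _ qb hqb) (norm_eq_of_signed_perm _ _ qc hqc)
    (norm_eq_of_signed_perm _ _ qd hqd) hrel hinner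
  refine ⟨_, _, _, _, ⟨qb, hqb⟩, ⟨qc, hqc⟩, ⟨qd, hqd⟩, hac, ?_, ?_, ?_, ?_, ?_⟩
  · rw [e1, hac]
    field_simp
    ring
  · rw [e2, hac]
    field_simp
    ring
  · rw [e3, hac]
    field_simp
    ring
  · rw [e4, hac]
    field_simp
    ring
  · rw [e5, hac]
    field_simp
    ring

/-- **Cyclic kites with sides `σ √A, σ √A, σ √B, σ √B`.** For all positive integers `A < B`
and every `σ > 0` there are `n`, a finite set `X` of points of `EuclideanSpace ℝ (Fin n)` and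
a group `G` of isometries which maps `X` into itself and acts transitively on `X`, such that
`X` contains four points `a`, `b`, `c`, `d` with `|ab| = |ad| = σ √A`, `|cb| = |cd| = σ √B`,
`|ac| = σ √(A + B)` and `|bd| = 2 σ √A √B / √(A + B)`. -/
theorem rat_kite (A B : ℕ) (hA : 0 < A) (hAB : A < B) (σ : ℝ) (hσ : 0 < σ) :
    ∃ (n : ℕ) (X : Set (EuclideanSpace ℝ (Fin n)))
      (G : Subgroup (EuclideanSpace ℝ (Fin n) ≃ᵢ EuclideanSpace ℝ (Fin n))),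
      X.Finite ∧ (∀ g ∈ G, ∀ p ∈ X, g p ∈ X) ∧ (∀ p ∈ X, ∀ q ∈ X, ∃ g ∈ G, g p = q) ∧
      ∃ a ∈ X, ∃ b ∈ X, ∃ c ∈ X, ∃ d ∈ X,
        dist a b = σ * Real.sqrt A ∧ dist a d = σ * Real.sqrt A ∧
        dist c b = σ * Real.sqrt B ∧ dist c d = σ * Real.sqrt B ∧
        dist a c = σ * Real.sqrt ((A : ℝ) + B) ∧
        dist b d = 2 * σ * Real.sqrt A * Real.sqrt B / Real.sqrt ((A : ℝ) + B) := by
  obtain ⟨k, rfl⟩ : ∃ k, B = A + k := ⟨B - A, by omega⟩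
  have hk : 0 < k := by omega
  have hA' : (0 : ℝ) < A := by exact_mod_cast hA
  have hk' : (0 : ℝ) < k := by exact_mod_cast hk
  have hB' : (0 : ℝ) < ((A + k : ℕ) : ℝ) := by positivity
  have hS : (0 : ℝ) < (A : ℝ) + ((A + k : ℕ) : ℝ) := by positivity
  have hsA : Real.sqrt (A : ℝ) ^ 2 = (A : ℝ) := Real.sq_sqrt hA'.le
  have hsB : Real.sqrt ((A + k : ℕ) : ℝ) ^ 2 = ((A + k : ℕ) : ℝ) := Real.sq_sqrt hB'.le
  have hsS : Real.sqrt ((A : ℝ) + ((A + k : ℕ) : ℝ)) ^ 2 = (A : ℝ) + ((A + k : ℕ) : ℝ) :=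
    Real.sq_sqrt hS.le
  obtain ⟨lam, hlam⟩ :
      ∃ lam : ℝ, lam = σ / (2 * Real.sqrt ((A : ℝ) + ((A + k : ℕ) : ℝ))) := ⟨_, rfl⟩
  have h4 : 4 * lam ^ 2 * ((A : ℝ) + ((A : ℝ) + k)) = σ ^ 2 := by
    have h := hsS
    push_cast at h
    rw [hlam, div_pow, mul_pow]
    push_cast
    rw [h]
    field_simp
    ring
  obtain ⟨a, b, c, d, hb, hc, hd, e0, e1, e2, e3, e4, e5⟩ :=
    rat_kite_points k (2 * A) hk (by omega) lam
  push_cast at e0 e1 e2 e3 e4 e5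
  obtain ⟨n, X, G, emb, hfin, hinv, htr, hdist, hmem⟩ := transitive_orbit_fin a
  have key : ∀ (x y : EuclideanSpace ℝ ↥(idx k (2 * A))) (r : ℝ), 0 ≤ r →
      dist x y ^ 2 = r ^ 2 → dist (emb x) (emb y) = r := by
    intro x y r hr h
    rw [hdist, ← Real.sqrt_sq dist_nonneg, h, Real.sqrt_sq hr]
  refine ⟨n, X, G, hfin, hinv, htr, emb a, hmem a ⟨1, fun i => Or.inl rfl⟩, emb b, hmem b hb,
    emb c, hmem c hc, emb d, hmem d hd, ?_, ?_, ?_, ?_, ?_, ?_⟩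
  · refine key a b _ (by positivity) ?_
    rw [e1, mul_pow, hsA]
    linear_combination (A : ℝ) * h4
  · refine key a d _ (by positivity) ?_
    rw [e2, mul_pow, hsA]
    linear_combination (A : ℝ) * h4
  · refine key c b _ (by positivity) ?_
    rw [e3, mul_pow, hsB]
    push_cast
    linear_combination ((A : ℝ) + k) * h4
  · refine key c d _ (by positivity) ?_
    rw [e4, mul_pow, hsB]
    push_cast
    linear_combination ((A : ℝ) + k) * h4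
  · refine key a c _ (by positivity) ?_
    rw [e0, mul_pow, hsS]
    push_cast
    linear_combination ((A : ℝ) + ((A : ℝ) + k)) * h4
  · refine key b d _ (by positivity) ?_
    rw [e5, div_pow, mul_pow, mul_pow, mul_pow, hsA, hsB, hsS, eq_div_iff hS.ne']
    push_cast
    linear_combination (4 * (A : ℝ) * ((A : ℝ) + k)) * h4

/-- **Cyclic kites with sides `σ √A, σ √A, σ √B, σ √B`, all positive integers `A`, `B`.**
For all positive integers `A`, `B` and every `σ > 0` there are `n`, a finite set `X` of points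
of `EuclideanSpace ℝ (Fin n)` and a group `G` of isometries which maps `X` into itself and acts
transitively on `X`, such that `X` contains four points `a`, `b`, `c`, `d` with
`|ab| = |ad| = σ √A`, `|cb| = |cd| = σ √B`, `|ac| = σ √(A + B)` and
`|bd| = 2 σ √A √B / √(A + B)`. -/
theorem rat_kite_all (A B : ℕ) (hA : 0 < A) (hB : 0 < B) (σ : ℝ) (hσ : 0 < σ) :
    ∃ (n : ℕ) (X : Set (EuclideanSpace ℝ (Fin n)))
      (G : Subgroup (EuclideanSpace ℝ (Fin n) ≃ᵢ EuclideanSpace ℝ (Fin n))),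
      X.Finite ∧ (∀ g ∈ G, ∀ p ∈ X, g p ∈ X) ∧ (∀ p ∈ X, ∀ q ∈ X, ∃ g ∈ G, g p = q) ∧
      ∃ a ∈ X, ∃ b ∈ X, ∃ c ∈ X, ∃ d ∈ X,
        dist a b = σ * Real.sqrt A ∧ dist a d = σ * Real.sqrt A ∧
        dist c b = σ * Real.sqrt B ∧ dist c d = σ * Real.sqrt B ∧
        dist a c = σ * Real.sqrt ((A : ℝ) + B) ∧
        dist b d = 2 * σ * Real.sqrt A * Real.sqrt B / Real.sqrt ((A : ℝ) + B) := by
  rcases lt_trichotomy A B with h | rfl | h
  · exact rat_kite A B hA h σ hσ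
  · -- the square
    have hA' : (0 : ℝ) < A := by exact_mod_cast hA
    have hsA : 0 < Real.sqrt (A : ℝ) := Real.sqrt_pos.2 hA'
    have h2 : Real.sqrt (2 : ℝ) ^ 2 = 2 := Real.sq_sqrt (by norm_num)
    have h2A : Real.sqrt ((A : ℝ) + A) = Real.sqrt 2 * Real.sqrt A := by
      rw [← two_mul, Real.sqrt_mul (by norm_num)]
    obtain ⟨X, G, hfin, -, hinv, htr, a, ha, b, hb, c, hc, d, hd, d1, d2, d3, d4, d5, d6⟩ :=
      Vale.Agent.Lib.P058.H90.cyc_kite_of (fun _ π v => soluble_signed_orbit π v) 2 2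
        (by norm_num) (by norm_num) (by norm_num) (σ * Real.sqrt A) (by positivity)
    have e1 : Real.sqrt (1 / ((2 : ℕ) : ℝ) + 1 / ((2 : ℕ) : ℝ)) = 1 := by
      rw [show (1 / ((2 : ℕ) : ℝ) + 1 / ((2 : ℕ) : ℝ)) = 1 by norm_num, Real.sqrt_one]
    have e2 : Real.sqrt (2 - 1 / ((2 : ℕ) : ℝ) - 1 / ((2 : ℕ) : ℝ)) = 1 := by
      rw [show (2 - 1 / ((2 : ℕ) : ℝ) - 1 / ((2 : ℕ) : ℝ)) = 1 by norm_num, Real.sqrt_one]
    have e3 : Real.sqrt (2 * (1 / ((2 : ℕ) : ℝ) + 1 / ((2 : ℕ) : ℝ))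
        * (2 - 1 / ((2 : ℕ) : ℝ) - 1 / ((2 : ℕ) : ℝ))) = Real.sqrt 2 := by
      rw [show (2 * (1 / ((2 : ℕ) : ℝ) + 1 / ((2 : ℕ) : ℝ))
        * (2 - 1 / ((2 : ℕ) : ℝ) - 1 / ((2 : ℕ) : ℝ))) = 2 by norm_num]
    rw [e1, mul_one] at d1 d2
    rw [e2, mul_one] at d3 d4
    rw [e3] at d6
    refine ⟨2 + 2, X, G, hfin, hinv, htr, a, ha, b, hb, c, hc, d, hd, d1, d2, d3, d4, ?_, ?_⟩
    · rw [d5, h2A]
      ring
    · rw [d6, h2A, eq_div_iff (by positivity)]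
      linear_combination σ * Real.sqrt A * Real.sqrt A * h2
  · obtain ⟨n, X, G, hfin, hinv, htr, a, ha, b, hb, c, hc, d, hd, d1, d2, d3, d4, d5, d6⟩ :=
      rat_kite B A hB h σ hσ
    refine ⟨n, X, G, hfin, hinv, htr, c, hc, b, hb, a, ha, d, hd, d3, d4, d1, d2, ?_, ?_⟩
    · rw [dist_comm, d5, add_comm]
    · rw [d6, add_comm]
      ring

end Vale.Agent.Lib.P058.H27
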