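import Mathlib
import Vale.Agent.Lib.P058.Defs

/-!
# P058: moving a soluble-transitive configuration along an isometry, and `ℂ × ℂ → ℝ⁴`

* `conjIso φ` : conjugation by an isometry equivalence `φ : E ≃ᵢ F`, as a homomorphism
  from the isometry group of `E` to the isometry group of `F`.
* `transport` : a finite set with a soluble transitive group of isometries is carried by `φ`
  to a finite set with a soluble transitive group of isometries.
* `e4` : the isometry equivalence `EuclideanSpace ℂ (Fin 2) ≃ᵢ EuclideanSpace ℝ (Fin 4)`,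
  `p ↦ (Re p₀, Im p₀, Re p₁, Im p₁)`.
-/

namespace Vale.Agent.Lib.P058.H27

open Vale.Agent.Lib.P058

/-- Conjugation by an isometry equivalence, as a group homomorphism:
`conjIso φ g = φ ∘ g ∘ φ⁻¹`. -/
def conjIso {E F : Type*} [PseudoEMetricSpace E] [PseudoEMetricSpace F] (φ : E ≃ᵢ F) :
    (E ≃ᵢ E) →* (F ≃ᵢ F) where
  toFun g := (φ.symm.trans g).trans φ
  map_one' := by
    ext x
    simp
  map_mul' g h := by
    ext x
    simp [IsometryEquiv.mul_apply]

theorem conjIso_apply {E F : Type*} [PseudoEMetricSpace E] [PseudoEMetricSpace F] (φ : E ≃ᵢ F)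
    (g : E ≃ᵢ E) (x : F) : conjIso φ g x = φ (g (φ.symm x)) := rfl

theorem conjIso_apply_map {E F : Type*} [PseudoEMetricSpace E] [PseudoEMetricSpace F]
    (φ : E ≃ᵢ F) (g : E ≃ᵢ E) (p : E) : conjIso φ g (φ p) = φ (g p) := by
  rw [conjIso_apply, IsometryEquiv.symm_apply_apply]

/-- The image of a soluble subgroup under a homomorphism is soluble. -/
theorem isSolvable_map {G H : Type*} [Group G] [Group H] (f : G →* H) (K : Subgroup G)
    (hK : Group.IsSolvable K) : Group.IsSolvable (K.map f) :=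
  Group.isSolvable_of_surjective (f.subgroupMap_surjective K)

/-- A finite set with a soluble group of isometries acting transitively on it is carried by an
isometry equivalence to a finite set with a soluble group of isometries acting transitively on
it. -/
theorem transport {E F : Type*} [PseudoEMetricSpace E] [PseudoEMetricSpace F] (φ : E ≃ᵢ F)
    (X : Set E) (G : Subgroup (E ≃ᵢ E)) (hfin : X.Finite) (hsol : Group.IsSolvable G)
    (hinv : ∀ g ∈ G, ∀ p ∈ X, g p ∈ X) (htr : ∀ p ∈ X, ∀ q ∈ X, ∃ g ∈ G, g p = q) :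
    (φ '' X).Finite ∧ Group.IsSolvable (G.map (conjIso φ)) ∧
      (∀ g ∈ G.map (conjIso φ), ∀ p ∈ φ '' X, g p ∈ φ '' X) ∧
      (∀ p ∈ φ '' X, ∀ q ∈ φ '' X, ∃ g ∈ G.map (conjIso φ), g p = q) := by
  refine ⟨hfin.image _, isSolvable_map _ _ hsol, ?_, ?_⟩
  · rintro g ⟨g0, hg0, rfl⟩ p ⟨p0, hp0, rfl⟩
    exact ⟨g0 p0, hinv g0 hg0 p0 hp0, (conjIso_apply_map φ g0 p0).symm⟩
  · rintro p ⟨p0, hp0, rfl⟩ q ⟨q0, hq0, rfl⟩
    obtain ⟨g0, hg0, h⟩ := htr p0 hp0 q0 hq0
    exact ⟨conjIso φ g0, ⟨g0, hg0, rfl⟩, by rw [conjIso_apply_map, h]⟩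

/-- The map `(x, y) ↦ (Re x, Im x, Re y, Im y)`. -/
noncomputable def e4fun (p : E2) : EuclideanSpace ℝ (Fin 4) :=
  WithLp.toLp 2 ![(p 0).re, (p 0).im, (p 1).re, (p 1).im]

/-- The inverse map `(v₀, v₁, v₂, v₃) ↦ (v₀ + v₁ i, v₂ + v₃ i)`. -/
noncomputable def e4inv (v : EuclideanSpace ℝ (Fin 4)) : E2 :=
  mk2 ⟨v 0, v 1⟩ ⟨v 2, v 3⟩

theorem e4inv_e4fun (p : E2) : e4inv (e4fun p) = p := by
  ext i
  fin_cases i <;> simp [e4inv, e4fun, mk2]

theorem e4fun_e4inv (v : EuclideanSpace ℝ (Fin 4)) : e4fun (e4inv v) = v := by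
  ext i
  fin_cases i <;> simp [e4inv, e4fun, mk2]

theorem dist_e4fun (p q : E2) : dist (e4fun p) (e4fun q) = dist p q := by
  rw [EuclideanSpace.dist_eq, EuclideanSpace.dist_eq, Fin.sum_univ_two, Fin.sum_univ_four]
  congr 1
  simp only [e4fun, Complex.dist_eq, Real.dist_eq, Complex.sq_norm, Complex.normSq_apply,
    sq_abs, Complex.sub_re, Complex.sub_im]
  simp
  ring

/-- `ℂ × ℂ` with the Euclidean distance is isometric to `ℝ⁴`. -/
noncomputable def e4 : E2 ≃ᵢ EuclideanSpace ℝ (Fin 4) where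
  toFun := e4fun
  invFun := e4inv
  left_inv := e4inv_e4fun
  right_inv := e4fun_e4inv
  isometry_toFun := Isometry.of_dist_eq dist_e4fun

theorem e4_apply (p : E2) : e4 p = e4fun p := rfl

theorem dist_e4 (p q : E2) : dist (e4 p) (e4 q) = dist p q := dist_e4fun p q

/-- Packaged form: a finite subset of `ℂ × ℂ` with a soluble transitive group of isometries and
four marked points gives a finite subset of `ℝ⁴` with a soluble transitive group of isometries
and four marked points with the same six mutual distances. -/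
theorem to_R4 (X : Set E2) (G : Subgroup (E2 ≃ᵢ E2)) (hfin : X.Finite)
    (hsol : Group.IsSolvable G) (hinv : ∀ g ∈ G, ∀ p ∈ X, g p ∈ X)
    (htr : ∀ p ∈ X, ∀ q ∈ X, ∃ g ∈ G, g p = q)
    (a b c d : E2) (ha : a ∈ X) (hb : b ∈ X) (hc : c ∈ X) (hd : d ∈ X) :
    ∃ (X' : Set (EuclideanSpace ℝ (Fin 4)))
      (G' : Subgroup (EuclideanSpace ℝ (Fin 4) ≃ᵢ EuclideanSpace ℝ (Fin 4))),
      X'.Finite ∧ Group.IsSolvable G' ∧ (∀ g ∈ G', ∀ p ∈ X', g p ∈ X') ∧
      (∀ p ∈ X', ∀ q ∈ X', ∃ g ∈ G', g p = q) ∧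
      ∃ a' ∈ X', ∃ b' ∈ X', ∃ c' ∈ X', ∃ d' ∈ X',
        dist a' b' = dist a b ∧ dist a' d' = dist a d ∧ dist c' b' = dist c b ∧
        dist c' d' = dist c d ∧ dist a' c' = dist a c ∧ dist b' d' = dist b d := by
  obtain ⟨h1, h2, h3, h4⟩ := transport e4 X G hfin hsol hinv htr
  exact ⟨e4 '' X, G.map (conjIso e4), h1, h2, h3, h4,
    e4 a, ⟨a, ha, rfl⟩, e4 b, ⟨b, hb, rfl⟩, e4 c, ⟨c, hc, rfl⟩, e4 d, ⟨d, hd, rfl⟩,
    dist_e4 a b, dist_e4 a d, dist_e4 c b, dist_e4 c d, dist_e4 a c, dist_e4 b d⟩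

end Vale.Agent.Lib.P058.H27
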